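import Vale.Agent.P239.Bdl.B21

/-!
The Singer conjecture in dimension four.
-/

namespace Vale.Agent.Results.P239.Singer

open Vale.Agent.P239

theorem result {M X Γ : Type*}
    -- `M` is a closed topological 4-manifold
    [TopologicalSpace M] [T2Space M] [CompactSpace M] [ChartedSpace (EuclideanSpace ℝ (Fin 4)) M]
    -- `X` is its universal cover, which is contractible, and `Γ` is the deck group
    [TopologicalSpace X] [ContractibleSpace X] [Group Γ] [MulAction Γ X] [ContinuousConstSMul Γ X]
    (p : X → M) (hp : IsQuotientCoveringMap p Γ) :
    bettiTwo Γ X 1 = 0 :=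
  F.singer p hp

end Vale.Agent.Results.P239.Singer
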